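import Crest.Agent.X262.StOn.On
import Crest.Agent.X262.Brg.Main

/-!
# Row 262, G4 / START (helper29), part 3: the generic point

* `exists_hyp`, `hyp_of_trdeg` : generic points of a smooth quartic surface;
* `gen_p`, `ln_ne`, `gen_t`    : the three tuples generate the same field;
* `genStmt : St91.GenStmt`.
-/

set_option autoImplicit false
set_option linter.style.haveILetI false

open MvPolynomial

noncomputable section

namespace Crest.Agent.X262.StOn

open Crest.Agent.X277 Crest.Agent.X277.Lef Crest.Agent.X277.AN.G1 Crest.Agent.X277.BD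
open Crest.Agent.X262.Top (Hyp)
open Crest.Agent.X262.Mv99 (Qt)
open Crest.Agent.X262.St91 Crest.Agent.X262.Brg Crest.Agent.X262.Brg.Hyp0

variable {F : Type} [Field F] [Algebra ℂ F] {om : Fin 6 → I2 → ℂ} {p : I2 → F}
  {Γ : MvPolynomial (Fin 4) ℂ}

theorem exists_hyp (h : Qt Γ) : ∃ (F : Type) (_ : Field F) (_ : Algebra ℂ F),
    Algebra.trdeg ℂ F = 2 ∧ Nonempty (Hyp 3 Γ F) := by
  have hp : Prime (Cubic.deh Γ) := Cubic.prime_deh (n := 3) (by norm_num) (by norm_num) h.1 h.2.2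
  let I : Ideal (MvPolynomial (Fin 3) ℂ) := Ideal.span {Cubic.deh Γ}
  haveI : IsDomain (MvPolynomial (Fin 3) ℂ ⧸ I) :=
    (Ideal.Quotient.isDomain_iff_prime _).2 ((Ideal.span_singleton_prime hp.ne_zero).2 hp)
  let K := FractionRing (MvPolynomial (Fin 3) ℂ ⧸ I)
  have e : aeval (R := ℂ) (fun i : Fin 3 => Ideal.Quotient.mk I (X i)) =
      Ideal.Quotient.mkₐ ℂ I := by
    ext1 i
    exact aeval_X _ _
  refine ⟨K, inferInstance, inferInstance,
    (Cubic.trdeg_frac ℂ _ K).trans (by exact_mod_cast Cubic.trdeg_quot (n := 2) hp),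
    ⟨Main.hypOf h.1 (by norm_num) h.2.2
      (adjoin_top_of_frac (fun i : Fin 3 => Ideal.Quotient.mk I (X i))
        (e ▸ Ideal.Quotient.mkₐ_surjective ℂ _))
      (gp_of_ker (N := 3) (by norm_num) (by norm_num) h.1 h.2.2 fun q => ?_)⟩⟩
  refine (Eq.congr_left (aeval_algebraMap_apply K _ q)).trans ?_
  rw [map_eq_zero_iff _ (IsFractionRing.injective _ K), e,
    Ideal.Quotient.mkₐ_eq_mk, Ideal.Quotient.eq_zero_iff_mem, Ideal.mem_span_singleton]

theorem top_of_gen {ι : Type} {z : ι → F} {i : ι} (hi : z i ≠ 0)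
    (h : IntermediateField.adjoin ℂ {x | ∃ i j, x = z i / z j} = ⊤) {K : IntermediateField ℂ F}
    (hK : ∀ j, z j / z i ∈ K) : K = ⊤ := top_unique (h ▸ IntermediateField.adjoin_le_iff.2 (by
  rintro _ ⟨j, k, rfl⟩
  rw [← div_div_div_cancel_right₀ hi]
  exact div_mem (hK j) (hK k)))

theorem hyp_of_trdeg (h : Qt Γ) {t : Fin 4 → F} (h0 : t ≠ 0) (hon : aeval t Γ = 0)
    (gen : IntermediateField.adjoin ℂ {x | ∃ i j, x = t i / t j} = ⊤)
    (htr : Algebra.trdeg ℂ F = 2) : ∃ T : Hyp 3 Γ F, T.y = t := by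
  obtain ⟨i, hi⟩ := Function.ne_iff.1 h0
  replace hi : t i ≠ 0 := hi
  obtain ⟨E, _, _, hE, ⟨S⟩⟩ := exists_hyp h
  have hS : GP Γ S.y := S.ker
  let φ : chart ℂ S.y i →ₐ[ℂ] F := AlgHom.liftOfSurjective (pres ℂ S.y i) (pres_surj i)
    (aeval ((t i)⁻¹ • t)) (by
      change RingHom.ker (pres ℂ S.y i) ≤ _
      rw [hS.ker h.1 (S.y_ne i), Ideal.span_le]
      rintro _ (rfl | rfl)
      · change aeval _ _ = 0
        rw [aeval_smul h.1, hon, mul_zero]
      · change aeval _ _ = 0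
        simp [hi])
  have hφ : ∀ q, φ (pres ℂ S.y i q) = aeval ((t i)⁻¹ • t) q := fun q =>
    AlgHom.liftOfSurjective_apply _ _ _ _ q
  haveI : IsFractionRing (chart ℂ S.y i) E := S.P.isFractionRing i
  haveI : Algebra.FiniteType ℂ (chart ℂ S.y i) := .of_surjective _ (pres_surj i)
  obtain ⟨d, hd, hd'⟩ := Cubic.dim_trdeg ℂ (chart ℂ S.y i)
  obtain rfl : d = 2 := by
    rw [← Cubic.trdeg_frac ℂ _ E, hE] at hd'
    exact_mod_cast hd'.symm
  have hinj : Function.Injective φ := Sym.inj_of_dim φ (Sym.fr_of_adjoin (top_of_gen hi gen fun j =>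
    IntermediateField.subset_adjoin _ _ ⟨pres ℂ S.y i (X j), by
      change φ _ = _
      rw [hφ, aeval_X, inv_smul_apply]⟩)) hd.le (by exact_mod_cast htr)
  have hT : GP Γ t := fun m q hq => by
    have h1 := hφ q
    have h2 := coe_pres (k := ℂ) (y := S.y) i q
    rw [aeval_smul hq] at h1 h2
    rw [← hS m q hq, ← mul_eq_zero_iff_left (pow_ne_zero m (inv_ne_zero hi)), ← h1,
      ← mul_eq_zero_iff_left (pow_ne_zero m (inv_ne_zero (S.y_ne i))), ← h2,
      map_eq_zero_iff _ hinj]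
    exact Subtype.ext_iff
  have hne := hT.ne h.1 (by norm_num)
  refine ⟨⟨t, hne, fun f => ?_, fun j => hT.smooth h.1 h.2.2 (hne j), hT⟩, rfl⟩
  obtain ⟨c, h1, h2, h3⟩ := Sym.fr_of_adjoin (S := chart ℂ t 0) (top_of_gen (hne 0) gen fun j =>
    IntermediateField.subset_adjoin _ _ (div_mem_chart t 0 j)) f
  exact ⟨_, h3, c, h1, h2, (mul_div_cancel_right₀ f h2).symm⟩

theorem gen_p (M : QM om) (S : Hyp 3 M.Γ F) (h : OnS om p) (hr : Rel M.B S.y p) :
    IntermediateField.adjoin ℂ {x | ∃ i j, x = p i / p j} = ⊤ := by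
  set K := IntermediateField.adjoin ℂ {x | ∃ i j, x = p i / p j}
  obtain ⟨j, hj⟩ := Function.ne_iff.1 h.ne
  replace hj : p j ≠ 0 := hj
  obtain ⟨φ, hφ⟩ := Module.Projective.exists_dual_eq_one K (one_ne_zero (α := F))
  have h1 := rel_smul hr (S.y 0)⁻¹ (p j)⁻¹
  have h2 : ∀ a l, ln (M.B a) ((p j)⁻¹ • p) l ∈ K := fun a l =>
    sum_mem fun m _ => mul_mem (algebraMap_mem _ _) (by
      rw [inv_smul_apply]
      exact IntermediateField.subset_adjoin _ _ ⟨m, j, rfl⟩)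
  have h3 : Rel M.B (fun l => (φ (((S.y 0)⁻¹ • S.y) l) : F)) ((p j)⁻¹ • p) := fun a => by
    have h4 := congrArg (fun x => (φ x : F)) (h1 a)
    simp only [map_sum, map_zero, IntermediateField.coe_sum, ZeroMemClass.coe_zero] at h4
    rw [← h4]
    refine Finset.sum_congr rfl fun l _ => ?_
    have h5 := φ.map_smul (⟨_, h2 a l⟩ : K) (((S.y 0)⁻¹ • S.y) l)
    rw [mul_comm (((S.y 0)⁻¹ • S.y) l), mul_comm]
    exact (congrArg Subtype.val h5).symm
  refine top_of_gen (S.y_ne 0) (gen_y S.P) fun l => ?_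
  have h4 := ux M (ons_smul h (inv_ne_zero hj)) h1 h3 l 0
  simp only [inv_smul_apply, div_self (S.y_ne 0), hφ, one_mul, OneMemClass.coe_one, mul_one] at h4
  exact h4 ▸ (φ _).2

theorem vl_cv {ι : Type} (A : ι → MvPolynomial (Fin 2) ℂ) {L : LP F} {s : Fin 2 → F}
    (hs : In L s) : In L (cv A s) ∧ vl L (cv A s) = cv A (vl L s) :=
  ⟨fun i => LP.aeval_mem hs (A i), funext fun i => LP.v_aeval hs (A i)⟩

theorem vl_zero {ι : Type} (L : LP F) : vl L (0 : ι → F) = 0 := funext fun _ => L.v_zero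

theorem ln_ne {N M : QM om} (C : Crv N M) (h : OnS om p)
    (gen : IntermediateField.adjoin ℂ {x | ∃ i j, x = p i / p j} = ⊤)
    (htr : Algebra.trdeg ℂ F = 2) : ln N.π p ≠ 0 := fun h0 => by
  have key : ∀ L : LP F, (∀ f ∈ Set.range p, f ∈ L.O ∧ (f ≠ 0 → L.v f ≠ 0)) →
      (∃ k, ln (C.τ k) (vl L p) ≠ 0) ∧ ∀ k, Par (vl L p) (cv C.A (ln (C.τ k) (vl L p))) :=
    fun L hL => C.sur _ (ons_sp h (in_of hL subset_rfl) (vl_ne hL subset_rfl h.ne))
      (by rw [← vl_ln _ (in_of hL subset_rfl), h0, vl_zero])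
  obtain ⟨k, hk⟩ : ∃ k, ln (C.τ k) p ≠ 0 := by
    obtain ⟨L, hL⟩ := exists_lp0 (Set.finite_range p)
    obtain ⟨k, hk⟩ := (key L hL).1
    exact ⟨k, fun h1 => hk (by rw [← vl_ln _ (in_of hL subset_rfl), h1, vl_zero])⟩
  have h1 : Par p (cv C.A (ln (C.τ k) p)) := fun i j =>
    sub_eq_zero.1 (zero_of_sp (Set.finite_range p) fun L hL => by
      have a1 := in_of hL subset_rfl
      obtain ⟨a2, a3⟩ := vl_cv C.A (in_ln (C.τ k) a1)
      rw [v_wd a1 a2, a3, vl_ln _ a1, sub_eq_zero]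
      exact (key L hL).2 k i j)
  generalize ln (C.τ k) p = s at hk h1
  have h2 : cv C.A s ≠ 0 := fun h2 => by
    obtain ⟨L, hL⟩ := exists_lp0 (Set.finite_range s)
    refine (C.on _ (vl_ne hL subset_rfl hk)).1.ne ?_
    rw [← (vl_cv C.A (in_of hL subset_rfl)).2, h2, vl_zero]
  obtain ⟨m, hm⟩ := Function.ne_iff.1 hk
  obtain ⟨j, hj⟩ := Function.ne_iff.1 h2
  obtain ⟨i, hi⟩ := Function.ne_iff.1 h.ne
  replace hm : s m ≠ 0 := hm
  replace hj : cv C.A s j ≠ 0 := hj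
  have hpj : p j ≠ 0 := fun h3 => mul_ne_zero hi hj ((h1 i j).trans (by rw [h3, zero_mul]))
  let K := IntermediateField.adjoin ℂ {s 0 / s 1}
  have h3 : ∀ l, ((s m)⁻¹ • s) l ∈ K := fun l => by
    have h4 : s 0 / s 1 ∈ K := IntermediateField.mem_adjoin_simple_self _ _
    rw [inv_smul_apply]
    fin_cases l <;> fin_cases m
    · exact (div_self hm).symm ▸ one_mem K
    · exact h4
    · exact inv_div (s 0) (s 1) ▸ inv_mem h4
    · exact (div_self hm).symm ▸ one_mem K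
  have h4 : ∀ l, aeval ((s m)⁻¹ • s) (C.A l) ∈ K := fun l => by
    have h5 : Algebra.adjoin ℂ (Set.range ((s m)⁻¹ • s)) ≤ K.toSubalgebra :=
      Algebra.adjoin_le (by rintro _ ⟨l, rfl⟩; exact h3 l)
    refine h5 ?_
    rw [Algebra.adjoin_range_eq_range_aeval]
    exact ⟨_, rfl⟩
  have h5 : K = ⊤ := top_of_gen hpj gen fun l => by
    have h6 := div_mem (h4 l) (h4 j)
    rw [aeval_smul (C.hA l), aeval_smul (C.hA j),
      mul_div_mul_left _ _ (pow_ne_zero _ (inv_ne_zero hm))] at h6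
    rwa [(div_eq_div_iff hpj hj).2 ((h1 l j).trans (mul_comm _ _))]
  haveI : Algebra.IsAlgebraic K F :=
    ⟨fun x => isAlgebraic_algebraMap (⟨x, h5 ▸ IntermediateField.mem_top⟩ : K)⟩
  haveI := IntermediateField.isAlgebraic_adjoin_iff_top.1 this
  have h6 := Algebra.IsAlgebraic.trdeg_le_cardinalMk ℂ ({s 0 / s 1} : Set F)
  rw [htr, Cardinal.mk_singleton] at h6
  norm_num at h6

theorem top_of_emb (K : IntermediateField ℂ F)
    (h : ∀ σ σ' : F →ₐ[K] AlgebraicClosure F, σ = σ') : K = ⊤ := by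
  haveI : IsPurelyInseparable K F := isPurelyInseparable_of_finSepDegree_eq_one
    (Nat.card_eq_one_iff_unique.2 ⟨⟨h⟩, inferInstance⟩)
  haveI : CharZero F := charZero_of_injective_algebraMap (algebraMap ℂ F).injective
  refine top_unique fun x _ => ?_
  obtain ⟨y, rfl⟩ := IsPurelyInseparable.surjective_algebraMap_of_isSeparable K F x
  exact y.2

theorem gen_t (N : QM om) (h : OnS om p)
    (gen : IntermediateField.adjoin ℂ {x | ∃ i j, x = p i / p j} = ⊤) {t : Fin 4 → F} (ht : t ≠ 0)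
    (hr : Rel N.B t p) : IntermediateField.adjoin ℂ {x | ∃ i j, x = t i / t j} = ⊤ :=
  top_of_emb _ fun σ σ' => AlgHom.restrictScalars_injective ℂ (by
    by_contra hne
    obtain ⟨i, hi⟩ := Function.ne_iff.1 ht
    have h1 := rel_smul hr (t i)⁻¹ 1
    rw [one_smul] at h1
    have h2 : (fun l => σ'.restrictScalars ℂ (((t i)⁻¹ • t) l)) =
        fun l => σ.restrictScalars ℂ (((t i)⁻¹ • t) l) := funext fun l => by
      have h3 : ((t i)⁻¹ • t) l ∈ IntermediateField.adjoin ℂ {x | ∃ i j, x = t i / t j} :=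
        IntermediateField.subset_adjoin _ _ ⟨l, i, inv_smul_apply _ _ _⟩
      exact (σ'.commutes ⟨_, h3⟩).trans (σ.commutes ⟨_, h3⟩).symm
    have h3 := uP N (map_ne (smul_ne_zero (inv_ne_zero hi) ht) (σ.restrictScalars ℂ))
      (ons_map _ h) (ons_map (σ'.restrictScalars ℂ) h) (rel_map _ h1) (h2 ▸ rel_map _ h1)
    exact wd_ne gen hne (funext fun ij => sub_eq_zero.2 (h3 ij.1 ij.2)))

/-- **GEN** -/
theorem genStmt : GenStmt := fun om G => by
  obtain ⟨F, _, _, htr, ⟨S⟩⟩ := exists_hyp G.M.qt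
  haveI : Algebra.EssFiniteType ℂ F := by
    haveI := S.P.isFractionRing 0
    haveI : Algebra.FiniteType ℂ (S.P.A 0) := .of_surjective _ (pres_surj 0)
    haveI : Algebra.EssFiniteType (S.P.A 0) F :=
      Algebra.EssFiniteType.of_isLocalization F (nonZeroDivisors (S.P.A 0))
    exact Algebra.EssFiniteType.comp ℂ (S.P.A 0) F
  let p : I2 → F := fun i => aeval S.y (G.Ψ i)
  obtain ⟨x₀, hx₀, i₀, hi₀⟩ := G.ex
  have h0 : p i₀ ≠ 0 := fun h => hi₀ (by
    obtain ⟨q, hq⟩ := (S.ker _ _ (G.hΨ i₀)).1 h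
    rw [hq, map_mul, hx₀, zero_mul])
  have key : ∀ L : LP F, (∀ f ∈ Set.range S.y ∪ Set.range p, f ∈ L.O ∧ (f ≠ 0 → L.v f ≠ 0)) →
      In L S.y ∧ In L p ∧ OnS om (vl L p) ∧ Rel G.M.B (vl L S.y) (vl L p) := fun L hL => by
    have a1 : In L S.y := in_of hL fun _ h => Or.inl h
    have a2 : vl L p = fun i => eval (vl L S.y) (G.Ψ i) := funext fun i => LP.v_aeval a1 _
    refine ⟨a1, in_of hL fun _ h => Or.inr h, a2 ▸ G.inv _ ?_ ⟨i₀, ?_⟩⟩
    · refine (LP.v_aeval a1 _).symm.trans ?_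
      rw [(S.ker _ _ G.M.qt.1).2 dvd_rfl, LP.v_zero]
    · exact congrFun a2 i₀ ▸ (hL _ (Or.inr ⟨i₀, rfl⟩)).2 h0
  have hs := (Set.finite_range S.y).union (Set.finite_range p)
  have hon : OnS om p := ⟨Function.ne_iff.2 ⟨i₀, h0⟩,
    fun i j => eq_neg_of_add_eq_zero_left (zero_of_sp hs fun L hL => by
      obtain ⟨-, a2, a3, -⟩ := key L hL
      rw [L.v_add (a2 _) (a2 _)]
      exact add_eq_zero_iff_eq_neg.2 (a3.skew i j)),
    fun i j k l => zero_of_sp hs fun L hL => by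
      obtain ⟨-, a2, a3, -⟩ := key L hL
      rw [v_plk a2, a3.plk],
    funext fun i => zero_of_sp hs fun L hL => by
      obtain ⟨-, a2, a3, -⟩ := key L hL
      exact congrFun ((vl_ln om a2).trans a3.lin) i⟩
  have hr : Rel G.M.B S.y p := fun a => zero_of_sp hs fun L hL => by
    obtain ⟨a1, a2, -, a4⟩ := key L hL
    rw [v_rel a1 a2, a4 a]
  have hg := gen_p G.M S hon hr
  have ht := ln_ne G.b hon hg htr
  obtain ⟨T, hT⟩ := hyp_of_trdeg G.N.qt ht (on G.N hon) (gen_t G.N hon hg ht (rel G.N hon)) htr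
  refine ⟨F, inferInstance, inferInstance, inferInstance, ?_,
    ⟨⟨S, T, p, hon, hr, hT ▸ rel G.N hon, hg⟩⟩⟩
  rw [trdeg_eq_dim] at htr
  exact_mod_cast htr

end Crest.Agent.X262.StOn
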