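import Crest.Agent.X262.StOn.Sp

/-!
# Row 262, G4 / START (helper29), part 2: the three models are isomorphic

* `on_p`, `on_y`  : the tuples are regular on the quartic models;
* `dst`           : the chordal distance at a valuation, `dst_le_of_on`, `dst_le_of_ux`;
* `onStmt : St91.OnStmt`.
-/

set_option autoImplicit false
set_option linter.style.haveILetI false
set_option linter.unusedSectionVars false

open MvPolynomial

noncomputable section

namespace Crest.Agent.X262.StOn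

open Crest.Agent.X277 Crest.Agent.X277.Lef Crest.Agent.X277.AN.G1 Crest.Agent.X277.BD
open Crest.Agent.X277.BD.Br
open Crest.Agent.X277.Cns (Ov)
open Crest.Agent.X262.Top (Hyp)
open Crest.Agent.X262.St91

variable {F : Type} [Field F] [Algebra ℂ F] {om : Fin 6 → I2 → ℂ} {p : I2 → F}

theorem inv_smul_apply {ι : Type} (z : ι → F) (c : F) (l : ι) : (c⁻¹ • z) l = z l / c := by
  simp [div_eq_inv_mul]

theorem vl_dom {ι : Type} {L L' : LP F} (h : L.Dom L') {z : ι → F} (hz : In L z) :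
    In L' z ∧ vl L' z = vl L z := ⟨fun i => h.le (hz i), funext fun i => h.eq _ (hz i)⟩

theorem in_nrm {ι : Type} {L : LP F} {z : ι → F} {j : ι} (hj : z j ≠ 0)
    (h : ∀ l, z l / z j ∈ L.O) : In L ((z j)⁻¹ • z) ∧ vl L ((z j)⁻¹ • z) ≠ 0 :=
  ⟨fun l => inv_smul_apply z _ l ▸ h l,
    Function.ne_iff.2 ⟨j, by rw [vl, inv_smul_apply, div_self hj, LP.v_one]; exact one_ne_zero⟩⟩

theorem on_p (M : QM om) (S : Hyp 3 M.Γ F) (h : OnS om p) (hr : Rel M.B S.y p) :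
    mxf ℂ p ∈ On S.P := fun x => by
  obtain ⟨i, hi⟩ := exists_pat x
  obtain ⟨h1, h2⟩ := in_nrm (L := lp x) (S.y_ne i) (y_mem hi)
  obtain ⟨j, hj, h3⟩ := exists_gen (x := x) h.ne
    (fun a => OnS om a ∧ Rel M.B (vl (lp x) ((S.y i)⁻¹ • S.y)) a)
    (fun a b ha hb => M.uP _ a b h2 ha.1 hb.1 ha.2 hb.2) fun L c hd hc h4 h5 =>
      ⟨ons_sp (ons_smul h hc) h4 h5,
        (vl_dom hd h1).2 ▸ rel_sp (rel_smul hr _ c) (vl_dom hd h1).1 h4⟩
  exact ⟨_, at_mxf hj h3⟩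

theorem on_y (N : QM om) {Q : PModel ℂ F} (h : OnS om p) (hp : mxf ℂ p ∈ On Q) {t : Fin 4 → F}
    (ht : t ≠ 0) (hr : Rel N.B t p) : mxf ℂ t ∈ On Q := fun x => by
  obtain ⟨i, hi, h0⟩ := gn_of_mem (Function.ne_iff.1 h.ne) hp x
  obtain ⟨h1, h2⟩ := in_nrm (L := lp x) hi h0
  obtain ⟨j, hj, h3⟩ := exists_gen (x := x) ht (fun a => Rel N.B a (vl (lp x) ((p i)⁻¹ • p)))
    (fun a b ha hb => N.ux a b _ (ons_sp (ons_smul h (inv_ne_zero hi)) h1 h2) ha hb)
    fun L c hd _ h4 _ => (vl_dom hd h1).2 ▸ rel_sp (rel_smul hr c _) h4 (vl_dom hd h1).1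
  exact ⟨_, at_mxf hj h3⟩

/-! ### the distance -/

section Dst

variable {L : Type} [Field L] [Algebra ℂ L] {ι : Type} [Fintype ι] {W : RZ ℂ L} {u u' : ι → L}

/-- the distance of two points of projective space -/
def dst (W : RZ ℂ L) (u u' : ι → L) : W.1.ValueGroup :=
  (mxf ℂ (wd u u')).val W / ((mxf ℂ u).val W * (mxf ℂ u').val W)

theorem val_dgl (α β : F →ₐ[ℂ] L) (z : ι → F) (W : RZ ℂ L) :
    (dgl α β z).val W = (dst W (fun i => α (z i)) fun i => β (z i))⁻¹ := by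
  rw [dgl, dst, pb_mxf, pb_mxf, val_sub, val_add, inv_div]

theorem dst_le_iff (hw : wd u u' ≠ 0) {c c' : L} (hc : W.v c = (mxf ℂ u).val W)
    (hc' : W.v c' = (mxf ℂ u').val W) {γ : W.1.ValueGroup} :
    dst W u u' ≤ γ ↔ ∀ i j, W.v (u i / c * (u' j / c') - u j / c * (u' i / c')) ≤ γ := by
  have h1 : ∀ i j, W.v (u i / c * (u' j / c') - u j / c * (u' i / c')) =
      W.v (wd u u' (i, j)) / ((mxf ℂ u).val W * (mxf ℂ u').val W) := fun i j => by
    rw [← hc, ← hc', ← map_mul, ← map_div₀, wd]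
    congr 1
    ring
  have h2 := mul_pos ((mxf ℂ u).val_pos W) ((mxf ℂ u').val_pos W)
  refine ⟨fun h i j => le_trans ?_ h, fun h => ?_⟩
  · rw [h1]
    exact div_le_div_of_nonneg_right (mem_Sec_mxf _ _ W) h2.le
  · obtain ⟨⟨i, j⟩, h3⟩ := exists_val_mxf (k := ℂ) (Function.ne_iff.1 hw) W
    rw [dst, ← h3, ← h1]
    exact h i j

attribute [irreducible] dst

theorem v_div_le {c : L} (hc : W.v c = (mxf ℂ u).val W) (i : ι) : W.v (u i / c) ≤ 1 := by
  rw [map_div₀, hc]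
  exact div_le_one_of_le₀ (mem_Sec_mxf u i W) zero_le

theorem v_mul_le {a b : L} {γ : W.1.ValueGroup} (ha : W.v a ≤ 1) (hb : W.v b ≤ γ) :
    W.v (a * b) ≤ γ := by
  rw [map_mul]
  exact (mul_le_mul' ha hb).trans (one_mul γ).le

theorem v_sub_le {a b : L} {γ : W.1.ValueGroup} (ha : W.v a ≤ γ) (hb : W.v b ≤ γ) :
    W.v (a - b) ≤ γ := W.v.map_sub_le ha hb

theorem dst_le_one (hw : wd u u' ≠ 0) (W : RZ ℂ L) : dst W u u' ≤ 1 :=
  (dst_le_iff hw (v_gen _ W) (v_gen _ W)).2 fun i j =>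
    v_sub_le (v_mul_le (v_div_le (v_gen _ W) i) (v_div_le (v_gen _ W) j))
      (v_mul_le (v_div_le (v_gen _ W) j) (v_div_le (v_gen _ W) i))

theorem v_eq_one {a b : L} (ha : W.v a = 1) (h : W.v (a - b) < 1) : W.v b = 1 := by
  rw [← ha] at h ⊢
  exact W.v.map_eq_of_sub_lt (by rwa [W.v.map_sub_swap])

theorem same (hw : wd u u' ≠ 0) (hu : u' ≠ 0) (h : dst W u u' < 1) {j : ι}
    (hj : W.v (u j) = (mxf ℂ u).val W) : W.v (u' j) = (mxf ℂ u').val W := by
  obtain ⟨k, hk⟩ := exists_val_mxf (k := ℂ) (Function.ne_iff.1 hu) W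
  have h1 := ((dst_le_iff hw hj hk).1 le_rfl j k).trans_lt h
  rw [div_self (ne_of_val hj), div_self (ne_of_val hk), one_mul] at h1
  have h2 := v_eq_one (map_one _) h1
  have h3 : W.v (u' j / u' k) = 1 := le_antisymm (v_div_le hk j) (not_lt.1 fun h4 => by
    rw [map_mul] at h2
    exact (mul_lt_one_of_nonneg_of_lt_one_right (v_div_le hj k) zero_le h4).ne h2)
  rw [map_div₀, div_eq_one_iff_eq (RZ.ne_zero_iff.2 (ne_of_val hk))] at h3
  exact h3.trans hk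

variable (α β : F →ₐ[ℂ] L)

/-- the functions which are Lipschitz for the pair of points -/
def lip (W : RZ ℂ L) (γ : W.1.ValueGroup) : Subalgebra ℂ F where
  carrier := {f | W.v (α f) ≤ 1 ∧ W.v (β f) ≤ 1 ∧ W.v (α f - β f) ≤ γ}
  mul_mem' {a b} ha hb := ⟨map_mul α a b ▸ v_mul_le ha.1 hb.1, map_mul β a b ▸ v_mul_le ha.2.1 hb.2.1,
    by
      rw [show α (a * b) - β (a * b) = α a * (α b - β b) - β b * (β a - α a) by
        rw [map_mul, map_mul]; ring]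
      exact v_sub_le (v_mul_le ha.1 hb.2.2) (v_mul_le hb.2.1 (W.v.map_sub_swap _ _ ▸ ha.2.2))⟩
  add_mem' {a b} ha hb := ⟨map_add α a b ▸ W.v.map_add_le ha.1 hb.1,
    map_add β a b ▸ W.v.map_add_le ha.2.1 hb.2.1, by
      rw [show α (a + b) - β (a + b) = (α a - β a) + (α b - β b) by rw [map_add, map_add]; ring]
      exact W.v.map_add_le ha.2.2 hb.2.2⟩
  algebraMap_mem' c := ⟨α.commutes c ▸ W.v_alg_le c, β.commutes c ▸ W.v_alg_le c, by
    rw [α.commutes, β.commutes, sub_self, map_zero]; exact zero_le⟩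

variable {α β}

theorem map_ne {z : ι → F} (hz : z ≠ 0) (α : F →ₐ[ℂ] L) : (fun i => α (z i)) ≠ 0 := fun h =>
  hz (funext fun i => (map_eq_zero α).1 (congrFun h i))

theorem dst_le_of_on {Q : PModel ℂ F} {z : ι → F} (hz : z ≠ 0) (h : mxf ℂ z ∈ On Q)
    (hw : wd (fun i => α (z i)) (fun i => β (z i)) ≠ 0)
    (hw' : wd (fun i => α (Q.y i)) (fun i => β (Q.y i)) ≠ 0) (W : RZ ℂ L) :
    dst W (fun i => α (z i)) (fun i => β (z i)) ≤
      dst W (fun i => α (Q.y i)) fun i => β (Q.y i) := by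
  set δ := dst W (fun i => α (Q.y i)) fun i => β (Q.y i) with hδ
  rcases lt_or_ge δ 1 with h1 | h1
  swap
  · exact le_trans (dst_le_one hw W) h1
  obtain ⟨x, hx⟩ := exists_ov' Q (cm (α : F →+* L) (alg_ov α) W)
  have hα : ∀ f ∈ (lp x).O, W.v (α f) ≤ 1 := fun f hf => RZ.le_one_iff.2 (hx f hf)
  have nrm : ∀ {κ : Type} [Fintype κ] {s : κ → F} {γ : F →ₐ[ℂ] L} {j : κ}, s j ≠ 0 →
      (∀ l, W.v (γ (s l / s j)) ≤ 1) → W.v (γ (s j)) = (mxf ℂ fun l => γ (s l)).val W :=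
    fun {_ _ s γ j} hj h => (val_mxf (s := fun l => γ (s l)) ((map_ne_zero γ).2 hj) fun l =>
      (RZ.le_iff ((map_ne_zero γ).2 hj)).2 (RZ.le_one_iff.1 (map_div₀ γ _ _ ▸ h l))).symm
  obtain ⟨i, hi⟩ := exists_pat x
  have h2 := nrm (Q.y_ne i) fun l => hα _ (y_mem hi l)
  have h3 := same hw' (map_ne (Function.ne_iff.2 ⟨i, Q.y_ne i⟩) β) h1 h2
  have h4 : Q.A i ≤ lip α β W δ := Algebra.adjoin_le (by
    rintro _ ⟨l, rfl⟩
    refine ⟨hα _ (y_mem hi l), map_div₀ β _ _ ▸ v_div_le h3 l, ?_⟩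
    have h5 := (dst_le_iff hw' h2 h3).1 le_rfl l i
    rwa [div_self (ne_of_val h2), div_self (ne_of_val h3), mul_one, one_mul, ← map_div₀,
      ← map_div₀] at h5)
  have h5 : ∀ f ∈ (lp x).O, f ∈ lip α β W δ := fun f hf => by
    obtain ⟨a, ha, c, hc, h6, h7⟩ := (mem_lp_iff hi).1 hf
    have h8 : W.v (α c) = 1 := Cns.un_iff_val.1 (hx.un h6).map
    have h9 := v_eq_one h8 ((h4 hc).2.2.trans_lt h1)
    have h10 : W.v (β f) ≤ 1 := by
      rw [← mul_one (W.v (β f)), ← h9, ← map_mul, ← map_mul, h7, h9]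
      exact (h4 ha).2.1
    refine ⟨hα f hf, h10, ?_⟩
    rw [← mul_one (W.v (α f - β f)), ← h8, ← map_mul,
      show (α f - β f) * α c = (α a - β a) - β f * (α c - β c) by
        rw [← h7, map_mul, map_mul]; ring]
    exact v_sub_le (h4 ha).2.2 (v_mul_le h10 (h4 hc).2.2)
  obtain ⟨j, hj, h6⟩ := gn_of_mem (Function.ne_iff.1 hz) h x
  refine (dst_le_iff hw (nrm hj fun l => (h5 _ (h6 l)).1) (nrm hj fun l => (h5 _ (h6 l)).2.1)).2
    fun l m => ?_
  simp only [← map_div₀]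
  rw [show α (z l / z j) * β (z m / z j) - α (z m / z j) * β (z l / z j) =
    β (z m / z j) * (α (z l / z j) - β (z l / z j)) -
      β (z l / z j) * (α (z m / z j) - β (z m / z j)) by ring]
  exact v_sub_le (v_mul_le (h5 _ (h6 m)).2.1 (h5 _ (h6 l)).2.2)
    (v_mul_le (h5 _ (h6 l)).2.1 (h5 _ (h6 m)).2.2)

theorem small_of_ux (M : QM om) {x y : Fin 4 → L} {P : I2 → L} (h : OnS om P) (hr : Rel M.B x P)
    {i : Fin 4} (h1 : x i = 1) (h2 : y i = 0) (hx : ∀ l, W.v (x l) ≤ 1) (hP : ∀ l, W.v (P l) ≤ 1)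
    {j : I2} (hj : P j = 1) {δ : W.1.ValueGroup}
    (hy : ∀ a, W.v (∑ l, y l * ln (M.B a) P l) ≤ δ) (k' : Fin 4) : W.v (y k') ≤ δ := by
  obtain ⟨k, hk⟩ := Cns.exists_mx y W.1
  refine (hk k').trans (not_lt.1 fun h4 => ?_)
  have h5 : y k ≠ 0 := fun h0 => by simp [h0] at h4
  obtain ⟨L', h6, h7⟩ := exists_lp W (((Set.finite_range x).union
    (Set.finite_range ((y k)⁻¹ • y))).union (Set.finite_range P))
  have a1 : In L' x := fun l => (h7 _ (Or.inl (Or.inl ⟨l, rfl⟩)) (RZ.le_one_iff.1 (hx l))).1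
  have a2 : In L' ((y k)⁻¹ • y) := fun l => (h7 _ (Or.inl (Or.inr ⟨l, rfl⟩))
    (by rw [inv_smul_apply]; exact (RZ.le_iff h5).1 (hk l))).1
  have a3 : In L' P := fun l => (h7 _ (Or.inr ⟨l, rfl⟩) (RZ.le_one_iff.1 (hP l))).1
  have a4 : vl L' P ≠ 0 := Function.ne_iff.2 ⟨j, by rw [vl, hj, LP.v_one]; exact one_ne_zero⟩
  have a5 : Rel M.B (vl L' ((y k)⁻¹ • y)) (vl L' P) := fun a => by
    rw [← v_rel a2 a3]
    refine (h6 _ ?_).2
    have e3 : ∑ l, ((y k)⁻¹ • y) l * ln (M.B a) P l = (∑ l, y l * ln (M.B a) P l) / y k := by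
      rw [Finset.sum_div]
      exact Finset.sum_congr rfl fun l _ => by rw [inv_smul_apply, div_mul_eq_mul_div]
    rw [e3, map_div₀, div_lt_one₀ (RZ.pos h5)]
    exact (hy a).trans_lt h4
  have h8 := M.ux _ _ _ (ons_sp h a3 a4) (rel_sp hr a1 a3) a5 i k
  rw [vl, vl, vl, vl, inv_smul_apply, inv_smul_apply, h1, h2, div_self h5, zero_div, LP.v_one,
    LP.v_zero, mul_zero, mul_one] at h8
  exact one_ne_zero h8

theorem dst_le_ux (M : QM om) {x x' : Fin 4 → L} {P P' : I2 → L} (hx : x ≠ 0) (h : OnS om P)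
    (h' : P' ≠ 0) (hr : Rel M.B x P) (hr' : Rel M.B x' P') (hw : wd x x' ≠ 0) (hw' : wd P P' ≠ 0)
    (W : RZ ℂ L) : dst W x x' ≤ dst W P P' := by
  rcases lt_or_ge (dst W P P') 1 with h1 | h1
  swap
  · exact le_trans (dst_le_one hw W) h1
  obtain ⟨j, hj⟩ := exists_val_mxf (k := ℂ) (Function.ne_iff.1 h.ne) W
  have hj' := same hw' h' h1 hj
  obtain ⟨i, hi⟩ := exists_val_mxf (k := ℂ) (Function.ne_iff.1 hx) W
  obtain ⟨c, hc⟩ := W.exists_v ((mxf ℂ x').val W)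
  have h2 : ∀ l, W.v (((P j)⁻¹ • P - (P' j)⁻¹ • P') l) ≤ dst W P P' := fun l => by
    have h3 := (dst_le_iff hw' hj hj').1 le_rfl l j
    rw [div_self (ne_of_val hj), div_self (ne_of_val hj'), mul_one, one_mul] at h3
    rwa [Pi.sub_apply, inv_smul_apply, inv_smul_apply]
  have h3 := small_of_ux (W := W) M (ons_smul h (inv_ne_zero (ne_of_val hj)))
    (rel_smul hr (x i)⁻¹ (P j)⁻¹) (y := fun k => x' k / c - x' i / c * (x k / x i)) (i := i)
    (by rw [inv_smul_apply, div_self (ne_of_val hi)])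
    (by rw [div_self (ne_of_val hi), mul_one, sub_self])
    (fun l => by rw [inv_smul_apply]; exact v_div_le hi l)
    (fun l => by rw [inv_smul_apply]; exact v_div_le hj l) (j := j)
    (by rw [inv_smul_apply, div_self (ne_of_val hj)]) (δ := dst W P P') fun a => by
      have e1 := rel_smul hr (x i)⁻¹ (P j)⁻¹ a
      have e2 := rel_smul hr' c⁻¹ (P' j)⁻¹ a
      have e3 : ∑ l, (x' l / c - x' i / c * (x l / x i)) * ln (M.B a) ((P j)⁻¹ • P) l =
          ∑ l, x' l / c * ln (M.B a) ((P j)⁻¹ • P - (P' j)⁻¹ • P') l := by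
        rw [ln_sub]
        generalize ln (M.B a) ((P j)⁻¹ • P) = A at e1 ⊢
        generalize ln (M.B a) ((P' j)⁻¹ • P') = A' at e2 ⊢
        simp only [inv_smul_apply, Fin.sum_univ_four, Pi.sub_apply] at e1 e2 ⊢
        linear_combination e2 - x' i / c * e1
      rw [e3]
      refine W.v.map_sum_le fun l _ => v_mul_le (v_div_le hc l) ?_
      exact W.v.map_sum_le fun m _ => v_mul_le (W.v_alg_le _) (h2 m)
  refine (dst_le_iff hw hi hc).2 fun k l => ?_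
  rw [show x k / x i * (x' l / c) - x l / x i * (x' k / c) =
    x k / x i * (x' l / c - x' i / c * (x l / x i)) -
      x l / x i * (x' k / c - x' i / c * (x k / x i)) by ring]
  exact v_sub_le (v_mul_le (v_div_le hi k) (h3 l)) (v_mul_le (v_div_le hi l) (h3 k))

theorem wd_ne {z : ι → F} (hz : IntermediateField.adjoin ℂ {x | ∃ i j, x = z i / z j} = ⊤)
    (h : α ≠ β) : wd (fun i => α (z i)) (fun i => β (z i)) ≠ 0 := fun h0 => h (by
  have h1 : (⊤ : IntermediateField ℂ F) ≤ (AlgHom.equalizer α β).toIntermediateField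
      fun x hx => by
        rw [AlgHom.mem_equalizer] at hx ⊢
        rw [map_inv₀, map_inv₀, hx] := by
    rw [← hz, IntermediateField.adjoin_le_iff]
    rintro _ ⟨i, j, rfl⟩
    change α _ = β _
    by_cases hj : z j = 0
    · simp [hj]
    · rw [map_div₀, map_div₀, div_eq_div_iff ((map_ne_zero α).2 hj) ((map_ne_zero β).2 hj),
        mul_comm (β _)]
      exact sub_eq_zero.1 (congrFun h0 (i, j))
  exact AlgHom.ext fun x => h1 IntermediateField.mem_top)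

theorem gen_y (Q : PModel ℂ F) :
    IntermediateField.adjoin ℂ {x | ∃ i j, x = Q.y i / Q.y j} = ⊤ := top_unique fun f _ => by
  obtain ⟨a, ha, c, hc, -, rfl⟩ := Q.frac f
  have h : chart ℂ Q.y 0 ≤ (IntermediateField.adjoin ℂ {x | ∃ i j, x = Q.y i / Q.y j}).toSubalgebra :=
    Algebra.adjoin_le (by
      rintro _ ⟨j, rfl⟩
      exact IntermediateField.subset_adjoin _ _ ⟨j, 0, rfl⟩)
  exact div_mem (h ha) (h hc)

theorem dgl_eq (M : QM om) (S : Hyp 3 M.Γ F) (h : OnS om p) (hr : Rel M.B S.y p)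
    (hp : IntermediateField.adjoin ℂ {x | ∃ i j, x = p i / p j} = ⊤) (hne : α ≠ β) :
    dgl α β S.y = dgl α β p := ext' fun W => by
  have h1 := wd_ne hp hne
  have h2 : wd (fun i => α (S.y i)) (fun i => β (S.y i)) ≠ 0 := wd_ne (gen_y S.P) hne
  have h3 := dst_le_ux M (map_ne (Function.ne_iff.2 ⟨0, S.y_ne 0⟩) α) (ons_map α h)
    (map_ne h.ne β) (rel_map α hr) (rel_map β hr) h2 h1 W
  have h4 := dst_le_of_on (Q := S.P) h.ne (on_p M S h hr) h1 h2 W
  rw [val_dgl, val_dgl]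
  exact congrArg Inv.inv (le_antisymm h3 h4)

end Dst

/-- **ON** -/
theorem onStmt : OnStmt := fun _ G _ _ _ Z =>
  have h1 := on_p G.M Z.S Z.on Z.relS
  have h2 := on_p G.N Z.T Z.on Z.relT
  ⟨h1, h2, on_y G.N Z.on h1 (Function.ne_iff.2 ⟨0, Z.T.y_ne 0⟩) Z.relT,
    on_y G.M Z.on h2 (Function.ne_iff.2 ⟨0, Z.S.y_ne 0⟩) Z.relS, fun _ _ _ _ _ h =>
    ⟨dgl_eq G.M Z.S Z.on Z.relS Z.gen h, dgl_eq G.N Z.T Z.on Z.relT Z.gen h⟩⟩

end Crest.Agent.X262.StOn
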