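import Crest.Agent.X262.St91.Defs

/-!
# Row 262, G4 / START (helper29), part 1: specialisation to complex points

* `exists_lp`, `exists_lp0`, `zero_of_sp` : complex points along a valuation ring;
* `In L x`, `ons_sp`, `rel_sp`            : points and relations specialise;
* `ux`, `uP`, `on`, `rel`                 : the properties of a quartic model over any field;
* `exists_dom_le`, `exists_gen`           : a tuple with one value at a point is regular there.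
-/

set_option autoImplicit false
set_option linter.style.haveILetI false

open MvPolynomial

noncomputable section

namespace Crest.Agent.X262.StOn

open Crest.Agent.X277 Crest.Agent.X277.Lef Crest.Agent.X277.AN.G1 Crest.Agent.X277.BD
open Crest.Agent.X277.BD.Br
open Crest.Agent.X277.BD.Cyc (Rf plV lnr_plV)
open Crest.Agent.X277.Cns (Ov)
open Crest.Agent.X262.St91

variable {F : Type} [Field F] [Algebra ℂ F]

/-- the residue map of a valuation ring -/
def plc (V : RZ ℂ F) : Plc F (Rf V) where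
  O := Cns.kSub V.2
  π := (plV V).r
  π_add := Pl.r_add (p := plV V)
  π_mul := Pl.r_mul (p := plV V)
  π_alg := lnr_plV V
  π_off h := dif_neg h
  inv_mem h := RZ.le_one_iff.1 (by
    have h1 : V.v _ = 1 := Pl.r_ne_zero_iff.1 h
    rw [map_inv₀, h1, inv_one])

theorem exists_pt (A : Type) [CommRing A] [Nontrivial A] [Algebra ℂ A] [Algebra.FiniteType ℂ A] :
    Nonempty (A →ₐ[ℂ] ℂ) := by
  obtain ⟨M, hM⟩ := Ideal.exists_maximal A
  let _ : Field (A ⧸ M) := Ideal.Quotient.field M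
  have : Module.Finite ℂ (A ⧸ M) := finite_of_finite_type_of_isJacobsonRing _ _
  exact ⟨(IsAlgClosed.lift (R := ℂ)).comp (Ideal.Quotient.mkₐ ℂ M)⟩

theorem exists_lp0 {s : Set F} (hs : s.Finite) :
    ∃ L : LP F, ∀ f ∈ s, f ∈ L.O ∧ (f ≠ 0 → L.v f ≠ 0) := by
  haveI : Algebra.FiniteType ℂ (Algebra.adjoin ℂ (s ∪ Inv.inv '' s)) :=
    .adjoin_of_finite (hs.union (hs.image _))
  obtain ⟨χ⟩ := exists_pt (Algebra.adjoin ℂ (s ∪ Inv.inv '' s))
  refine ⟨lpAt χ, fun f hf => ?_⟩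
  have h1 : f ∈ (lpAt χ).O := le_lpAt χ (Algebra.subset_adjoin (Or.inl hf))
  exact ⟨h1, fun h0 => LP.ne_of_inv_mem h1 h0
    (le_lpAt χ (Algebra.subset_adjoin (Or.inr ⟨f, hf, rfl⟩)))⟩

theorem exists_lp (V : RZ ℂ F) {s : Set F} (hs : s.Finite) :
    ∃ L : LP F, (∀ f, V.v f < 1 → f ∈ L.O ∧ L.v f = 0) ∧
      ∀ f ∈ s, f ∈ V.1 → f ∈ L.O ∧ (V.v f = 1 → L.v f ≠ 0) := by
  obtain ⟨L, hL⟩ := exists_lp0 (hs.image (plV V).r)
  refine ⟨L.comap (plc V), fun f hf => ?_, fun f hf h => ?_⟩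
  · have h1 : f ∈ V.1 := RZ.le_one_iff.1 hf.le
    have h2 : (plc V).π f = 0 := (Pl.r_eq_zero (p := plV V) h1).2 hf
    exact ⟨⟨h1, h2 ▸ zero_mem _⟩, by rw [LP.comap_v, h2, LP.v_zero]⟩
  · obtain ⟨h1, h2⟩ := hL _ ⟨f, hf, rfl⟩
    exact ⟨⟨h, h1⟩, fun h3 => h2 ((Pl.r_ne_zero_iff (p := plV V)).2 h3)⟩

theorem zero_of_sp {s : Set F} (hs : s.Finite) {w : F}
    (h : ∀ L : LP F, (∀ f ∈ s, f ∈ L.O ∧ (f ≠ 0 → L.v f ≠ 0)) → L.v w = 0) : w = 0 := by
  by_contra h0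
  obtain ⟨L, hL⟩ := exists_lp0 (hs.insert w)
  exact (hL w (Or.inl rfl)).2 h0 (h L fun f hf => hL f (Or.inr hf))

/-! ### vectors -/

section Vec

variable {ι κ : Type} {L : LP F}

/-- all coordinates are regular -/
def In (L : LP F) (x : ι → F) : Prop := ∀ i, x i ∈ L.O

/-- the value -/
def vl (L : LP F) (x : ι → F) : ι → ℂ := fun i => L.v (x i)

theorem vl_ne {s : Set F} (hL : ∀ f ∈ s, f ∈ L.O ∧ (f ≠ 0 → L.v f ≠ 0)) {x : ι → F}
    (hx : Set.range x ⊆ s) (h0 : x ≠ 0) : vl L x ≠ 0 := by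
  obtain ⟨i, hi⟩ := Function.ne_iff.1 h0
  exact Function.ne_iff.2 ⟨i, (hL _ (hx ⟨i, rfl⟩)).2 hi⟩

theorem in_of {s : Set F} (hL : ∀ f ∈ s, f ∈ L.O ∧ (f ≠ 0 → L.v f ≠ 0)) {x : ι → F}
    (hx : Set.range x ⊆ s) : In L x := fun i => (hL _ (hx ⟨i, rfl⟩)).1

theorem in_ln [Fintype κ] (π : ι → κ → ℂ) {P : κ → F} (hP : In L P) : In L (ln π P) :=
  fun _ => sum_mem fun j _ => mul_mem (algebraMap_mem _ _) (hP j)

theorem vl_ln [Fintype κ] (π : ι → κ → ℂ) {P : κ → F} (hP : In L P) :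
    vl L (ln π P) = ln π (vl L P) := funext fun i => by
  rw [vl, ln, ln, LP.v_sum _ fun j _ => mul_mem (algebraMap_mem _ _) (hP j)]
  exact Finset.sum_congr rfl fun j _ => by rw [L.v_mul (algebraMap_mem _ _) (hP j), L.v_alg]; rfl

theorem ln_smul [Fintype κ] (π : ι → κ → ℂ) (c : F) (P : κ → F) : ln π (c • P) = c • ln π P :=
  funext fun i => by simp [ln, Finset.mul_sum, mul_left_comm c]

theorem ln_sub [Fintype κ] (π : ι → κ → ℂ) (P Q : κ → F) : ln π (P - Q) = ln π P - ln π Q :=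
  funext fun i => by simp [ln, mul_sub]

theorem map_ln {E : Type} [Field E] [Algebra ℂ E] (α : F →ₐ[ℂ] E) [Fintype κ] (π : ι → κ → ℂ)
    (P : κ → F) (i : ι) : α (ln π P i) = ln π (fun j => α (P j)) i := by simp [ln]

theorem v_wd {x y : ι → F} (hx : In L x) (hy : In L y) (i j : ι) :
    L.v (x i * y j - x j * y i) = vl L x i * vl L y j - vl L x j * vl L y i := by
  rw [LP.v_sub (mul_mem (hx i) (hy j)) (mul_mem (hx j) (hy i)), L.v_mul (hx i) (hy j),
    L.v_mul (hx j) (hy i)]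
  rfl

variable {om : Fin 6 → I2 → ℂ} {P : I2 → F} {x : Fin 4 → F} {r : ℕ} {B : Fin r → Fin 4 → I2 → ℂ}

theorem v_plk (hP : In L P) (a b c d e f : I2) :
    L.v (P a * P b - P c * P d + P e * P f) =
      vl L P a * vl L P b - vl L P c * vl L P d + vl L P e * vl L P f := by
  rw [L.v_add (sub_mem (mul_mem (hP _) (hP _)) (mul_mem (hP _) (hP _))) (mul_mem (hP _) (hP _)),
    LP.v_sub (mul_mem (hP _) (hP _)) (mul_mem (hP _) (hP _)), L.v_mul (hP _) (hP _),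
    L.v_mul (hP _) (hP _), L.v_mul (hP _) (hP _)]
  rfl

theorem ons_sp (h : OnS om P) (hP : In L P) (h0 : vl L P ≠ 0) : OnS om (vl L P) :=
  ⟨h0, fun i j => by rw [vl, h.skew, LP.v_neg (hP _)]; rfl,
    fun i j k l => by rw [← v_plk hP, h.plk, LP.v_zero],
    by rw [← vl_ln om hP, h.lin]; exact funext fun _ => L.v_zero⟩

theorem v_rel (hx : In L x) (hP : In L P) (b : Fin 4 → I2 → ℂ) :
    L.v (∑ i, x i * ln b P i) = ∑ i, vl L x i * ln b (vl L P) i := by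
  rw [LP.v_sum _ fun i _ => mul_mem (hx i) (in_ln b hP i), ← vl_ln b hP]
  exact Finset.sum_congr rfl fun i _ => L.v_mul (hx i) (in_ln b hP i)

theorem rel_sp (h : Rel B x P) (hx : In L x) (hP : In L P) : Rel B (vl L x) (vl L P) :=
  fun a => by rw [← v_rel hx hP, h a, LP.v_zero]

theorem ons_smul (h : OnS om P) {c : F} (hc : c ≠ 0) : OnS om (c • P) :=
  ⟨smul_ne_zero hc h.ne, fun i j => by simp [h.skew i j], fun i j k l => by
    simp only [Pi.smul_apply, smul_eq_mul]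
    linear_combination c * c * h.plk i j k l, by rw [ln_smul, h.lin, smul_zero]⟩

theorem rel_smul (h : Rel B x P) (c c' : F) : Rel B (c • x) (c' • P) := fun a => by
  have h1 := h a
  simp only [ln_smul, Pi.smul_apply, smul_eq_mul]
  rw [← mul_zero (c * c'), ← h1, Finset.mul_sum]
  exact Finset.sum_congr rfl fun i _ => by ring

section Map

variable {E : Type} [Field E] [Algebra ℂ E] (α : F →ₐ[ℂ] E)

theorem ons_map (h : OnS om P) : OnS om fun i => α (P i) :=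
  ⟨fun h0 => h.ne (funext fun i => (map_eq_zero α).1 (congrFun h0 i)),
    fun i j => by rw [h.skew, map_neg],
    fun i j k l => by simpa using congrArg α (h.plk i j k l),
    funext fun i => by rw [← map_ln, h.lin]; simp⟩

theorem rel_map (h : Rel B x P) : Rel B (fun i => α (x i)) fun i => α (P i) := fun a => by
  simpa [map_ln] using congrArg α (h a)

end Map

/-! ### quartic models over a field -/

variable (M : QM om)

theorem ux {x x' : Fin 4 → F} (h : OnS om P) (h1 : Rel M.B x P) (h2 : Rel M.B x' P) : Par x x' :=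
  fun i j => sub_eq_zero.1 (zero_of_sp (((Set.finite_range x).union (Set.finite_range x')).union
    (Set.finite_range P)) fun L hL => by
      have a1 : In L x := in_of hL fun _ h => Or.inl (Or.inl h)
      have a2 : In L x' := in_of hL fun _ h => Or.inl (Or.inr h)
      have a3 : In L P := in_of hL fun _ h => Or.inr h
      rw [v_wd a1 a2, sub_eq_zero]
      exact M.ux _ _ _ (ons_sp h a3 (vl_ne hL (fun _ h => Or.inr h) h.ne)) (rel_sp h1 a1 a3)
        (rel_sp h2 a2 a3) i j)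

theorem uP {P' : I2 → F} (h0 : x ≠ 0) (h : OnS om P) (h' : OnS om P') (h1 : Rel M.B x P)
    (h2 : Rel M.B x P') : Par P P' :=
  fun i j => sub_eq_zero.1 (zero_of_sp (((Set.finite_range x).union (Set.finite_range P')).union
    (Set.finite_range P)) fun L hL => by
      have a1 : In L x := in_of hL fun _ h => Or.inl (Or.inl h)
      have a2 : In L P' := in_of hL fun _ h => Or.inl (Or.inr h)
      have a3 : In L P := in_of hL fun _ h => Or.inr h
      rw [v_wd a3 a2, sub_eq_zero]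
      exact M.uP _ _ _ (vl_ne hL (fun _ h => Or.inl (Or.inl h)) h0)
        (ons_sp h a3 (vl_ne hL (fun _ h => Or.inr h) h.ne))
        (ons_sp h' a2 (vl_ne hL (fun _ h => Or.inl (Or.inr h)) h'.ne)) (rel_sp h1 a1 a3)
        (rel_sp h2 a1 a2) i j)

theorem on (h : OnS om P) : aeval (ln M.π P) M.Γ = 0 :=
  zero_of_sp (Set.finite_range P) fun L hL => by
    have a3 : In L P := in_of hL subset_rfl
    rw [LP.v_aeval (in_ln M.π a3)]
    exact (congrArg (eval · M.Γ) (vl_ln M.π a3)).trans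
      (M.on _ (ons_sp h a3 (vl_ne hL subset_rfl h.ne)))

theorem rel (h : OnS om P) : Rel M.B (ln M.π P) P := fun a =>
  zero_of_sp (Set.finite_range P) fun L hL => by
    have a3 : In L P := in_of hL subset_rfl
    rw [v_rel (in_ln M.π a3) a3, vl_ln M.π a3]
    exact M.rel _ (ons_sp h a3 (vl_ne hL subset_rfl h.ne)) a

end Vec

/-! ### points of a model -/

variable {Q : PModel ℂ F} {x : Pts Q}

theorem exists_dom_le {V : RZ ℂ F} (hx : Ov x V.1) : ∃ W : RZ ℂ F, W.1 ≤ V.1 ∧ Ov x W.1 ∧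
    ∀ f ∈ (lp x).O, W.v f = 1 → ev f x ≠ 0 := by
  let ρ : (lp x).O →+* Rf V := (plV V).φ.comp
    (((lp x).O.val : (lp x).O →+* F).codRestrict V.1.toSubring fun f => hx f f.2)
  have hρ : ∀ f : (lp x).O, ρ f = (plV V).r f := fun f => ((plV V).r_eq (hx f f.2)).symm
  haveI : (lp x).mx.IsPrime := RingHom.ker_isPrime _
  obtain ⟨W, h1, h2⟩ := Cns.exists_val ρ (lp x).mx fun f hf => by_contra fun h =>
    (Pl.r_ne_zero_iff (p := plV V)).2 (ev_ne_iff'.1 h _ hx) ((hρ f).symm.trans hf)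
  have hW : Cns.KV ℂ W := fun c => by
    have h3 := h1 (algebraMap ℂ _ c)
    rwa [hρ, Subalgebra.coe_algebraMap, lnr_plV V c] at h3
  have h3 : Ov x ((plV V).cm ⟨W, hW⟩).1 := fun f hf => ⟨hx f hf, hρ ⟨f, hf⟩ ▸ h1 ⟨f, hf⟩⟩
  refine ⟨(plV V).cm ⟨W, hW⟩, (plV V).cm_le _, h3, fun f hf h => ?_⟩
  have h4 : ((plV V).cm ⟨W, hW⟩).v f = ((plV V).cm ⟨W, hW⟩).v 1 := h.trans (map_one _).symm
  have h5 := (Pl.v_eq_iff ((RZ.eq_of_le ((plV V).cm_le ⟨W, hW⟩) h4).trans (map_one _)) (map_one _)).1 h4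
  rw [Pl.r_one, map_one] at h5
  exact (h2 ⟨f, hf⟩).1 (Cns.un_iff_val.2 (hρ ⟨f, hf⟩ ▸ h5))

theorem dom_of {W : RZ ℂ F} (h1 : Ov x W.1) (h2 : ∀ f ∈ (lp x).O, W.v f = 1 → ev f x ≠ 0)
    {L : LP F} (hL : ∀ f, W.v f < 1 → f ∈ L.O ∧ L.v f = 0) : (lp x).Dom L := by
  have key : ∀ f ∈ (lp x).O, f ∈ L.O ∧ L.v f = ev f x := fun f hf => by
    have h3 : f - algebraMap ℂ F (ev f x) ∈ (lp x).O := sub_mem hf (algebraMap_mem _ _)
    obtain ⟨h4, h5⟩ := hL _ (lt_of_le_of_ne (RZ.le_one_iff.2 (h1 _ h3)) fun h => h2 _ h3 h (by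
      rw [ev, LP.v_sub hf (algebraMap_mem _ _), LP.v_alg, sub_self]))
    have h6 : f ∈ L.O := by simpa using add_mem h4 (algebraMap_mem L.O (ev f x))
    rw [LP.v_sub h6 (algebraMap_mem _ _), LP.v_alg, sub_eq_zero] at h5
    exact ⟨h6, h5⟩
  exact ⟨fun f hf => (key f hf).1, fun f hf => (key f hf).2⟩

/-- a tuple which has only one value over the point `x` is regular at `x` -/
theorem exists_gen {ι : Type} [Finite ι] {z : ι → F} (hz : z ≠ 0) (R : (ι → ℂ) → Prop)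
    (hu : ∀ a b, R a → R b → Par a b)
    (hR : ∀ (L : LP F) (c : F), (lp x).Dom L → c ≠ 0 → In L (c • z) → vl L (c • z) ≠ 0 →
      R (vl L (c • z))) : ∃ j, z j ≠ 0 ∧ ∀ l, z l / z j ∈ (lp x).O := by
  obtain ⟨i₀, hi₀⟩ := Function.ne_iff.1 hz
  haveI : Nonempty ι := ⟨i₀⟩
  have key : ∀ W : RZ ℂ F, Ov x W.1 → (∀ f ∈ (lp x).O, W.v f = 1 → ev f x ≠ 0) →
      ∃ j a, z j ≠ 0 ∧ R a ∧ a j = 1 ∧ (∀ l, W.v (z l) ≤ W.v (z j)) ∧
        ∀ l, a l ≠ 0 → W.v (z j) ≤ W.v (z l) := fun W h1 h2 => by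
    obtain ⟨j, hj⟩ := Cns.exists_mx z W.1
    have h0 : z j ≠ 0 := fun h => hi₀ (by simpa [h] using hj i₀)
    obtain ⟨L, h3, h4⟩ := exists_lp W (Set.finite_range ((z j)⁻¹ • z))
    have h5 : ∀ l, ((z j)⁻¹ • z) l = z l / z j := fun l => by simp [div_eq_inv_mul]
    have h6 : In L ((z j)⁻¹ • z) := fun l =>
      (h4 _ ⟨l, rfl⟩ (h5 l ▸ (RZ.le_iff h0).1 (hj l))).1
    have h7 : vl L ((z j)⁻¹ • z) j = 1 := by rw [vl, h5, div_self h0, LP.v_one]
    refine ⟨j, _, h0, hR L _ (dom_of h1 h2 h3) (inv_ne_zero h0) h6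
      (Function.ne_iff.2 ⟨j, by simp [h7]⟩), h7, hj, fun l hl => not_lt.1 fun h => hl ?_⟩
    refine (h3 _ ?_).2
    rw [h5, map_div₀]
    exact (div_lt_one₀ (RZ.pos h0)).2 h
  obtain ⟨W₀, h1, h2⟩ := exists_dom x
  obtain ⟨j, a, hj, ha, ha1, -, -⟩ := key W₀ h1 fun f hf => (h2 f hf).1
  refine ⟨j, hj, fun l => mem_lp_iff'.2 fun V hV => ?_⟩
  obtain ⟨W, h3, h4, h5⟩ := exists_dom_le hV
  obtain ⟨k, b, -, hb, hb1, h6, h7⟩ := key W h4 h5
  refine RZ.le_one_iff.2 (h3 ((RZ.le_iff hj).1 ((h6 l).trans (h7 j fun h0 => ?_))))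
  have h8 := hu a b ha hb j k
  rw [ha1, hb1, h0] at h8
  simp at h8

end Crest.Agent.X262.StOn
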